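import Mathlib

/-!
# P042: a digit construction for sets without differences `n ^ k * g n`
-/

namespace Vale.Agent.PolyDiff

open Polynomial

/-- `(A - A) ∩ h(ℕ₊) ⊆ {0}`: no nonzero difference of `A` is a value `h(n)`, `n ≥ 1`. -/
def AvoidsPoly (h : ℤ[X]) (A : Finset ℤ) : Prop :=
  ∀ a ∈ A, ∀ b ∈ A, ∀ n : ℕ, 1 ≤ n → a - b = h.eval (n : ℤ) → a - b = 0

/-- `r_h(N)`: the largest size of a subset of `{1, …, N}` no nonzero difference of which is a
value `h(n)`, `n ≥ 1`. -/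
noncomputable def rPoly (h : ℤ[X]) (N : ℕ) : ℕ :=
  sSup {k : ℕ | ∃ A : Finset ℤ, A ⊆ Finset.Icc (1 : ℤ) N ∧ AvoidsPoly h A ∧ A.card = k}

theorem bddAbove_rPoly (h : ℤ[X]) (N : ℕ) :
    BddAbove {k : ℕ | ∃ A : Finset ℤ, A ⊆ Finset.Icc (1 : ℤ) N ∧ AvoidsPoly h A ∧ A.card = k} := by
  refine ⟨N, ?_⟩
  rintro k ⟨A, hA, -, rfl⟩
  have := Finset.card_le_card hA
  simpa using this

theorem card_le_rPoly {h : ℤ[X]} {N : ℕ} {A : Finset ℤ} (hA : A ⊆ Finset.Icc (1 : ℤ) N)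
    (h2 : AvoidsPoly h A) : A.card ≤ rPoly h N :=
  le_csSup (bddAbove_rPoly h N) ⟨A, hA, h2, rfl⟩

/-- no difference of two elements is congruent to `c x ^ k` modulo `p` -/
def Good (p c : ℤ) (k : ℕ) (R : Finset ℤ) : Prop :=
  ∀ r ∈ R, ∀ r' ∈ R, ∀ x : ℤ, p ∣ (r - r' - c * x ^ k) → r = r'

/-- the digit map -/
def dig (p : ℤ) (e : ℕ) (q : (ℤ × ℤ) × ℤ) : ℤ := q.1.1 + p * q.1.2 + p ^ (e + 1) * q.2

/-- the sets of the construction -/
noncomputable def digs (p : ℤ) (e : ℕ) (R : Finset ℤ) : ℕ → Finset ℤ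
  | 0 => {0}
  | j + 1 => ((R ×ˢ Finset.Ico (0 : ℤ) (p ^ e)) ×ˢ digs p e R j).image (dig p e)

theorem digit_eq {m a b c d : ℤ} (ha : 0 ≤ a) (ha' : a < m) (hb : 0 ≤ b) (hb' : b < m)
    (h : a + m * c = b + m * d) : a = b ∧ c = d := by
  have h1 : a % m = b % m := by
    have := congrArg (· % m) h
    simpa [Int.add_mul_emod_self_left] using this
  rw [Int.emod_eq_of_lt ha ha', Int.emod_eq_of_lt hb hb'] at h1
  refine ⟨h1, ?_⟩
  have h2 : m * c = m * d := by linarith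
  exact mul_left_cancel₀ (by linarith) h2

variable {p : ℤ} {e : ℕ} {R : Finset ℤ}

theorem digs_range (hp : 0 < p) (hR : ∀ r ∈ R, 0 ≤ r ∧ r < p) (j : ℕ) :
    ∀ a ∈ digs p e R j, 0 ≤ a ∧ a < (p ^ (e + 1)) ^ j := by
  induction j with
  | zero =>
    intro a ha
    simp only [digs, Finset.mem_singleton] at ha
    subst ha
    simp
  | succ j ih =>
    intro a ha
    simp only [digs, Finset.mem_image, Finset.mem_product, Finset.mem_Ico] at ha
    obtain ⟨⟨⟨r, s⟩, b⟩, ⟨⟨h1, h2, h3⟩, h4⟩, rfl⟩ := ha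
    obtain ⟨r0, r1⟩ := hR r h1
    obtain ⟨b0, b1⟩ := ih b h4
    simp only [dig]
    simp only at h2 h3 r0 r1 b0 b1
    constructor
    · positivity
    · have e1 : (p ^ (e + 1)) ^ (j + 1) = p ^ (e + 1) * (p ^ (e + 1)) ^ j := by ring
      rw [e1]
      have e2 : b + 1 ≤ (p ^ (e + 1)) ^ j := b1
      have e3 : p ^ (e + 1) * (b + 1) ≤ p ^ (e + 1) * (p ^ (e + 1)) ^ j :=
        mul_le_mul_of_nonneg_left e2 (by positivity)
      have e4 : p * (s + 1) ≤ p * p ^ e := mul_le_mul_of_nonneg_left h3 hp.le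
      have e5 : p * p ^ e = p ^ (e + 1) := by ring
      rw [e5] at e4
      linarith

theorem dig_inj (hR : ∀ r ∈ R, 0 ≤ r ∧ r < p) (B : Finset ℤ) :
    Set.InjOn (dig p e) (((R ×ˢ Finset.Ico (0 : ℤ) (p ^ e)) ×ˢ B : Finset ((ℤ × ℤ) × ℤ)) :
      Set ((ℤ × ℤ) × ℤ)) := by
  rintro ⟨⟨r, s⟩, b⟩ h ⟨⟨r', s'⟩, b'⟩ h' he
  simp only [Finset.coe_product, Set.mem_prod, Finset.mem_coe, Finset.mem_Ico] at h h'
  simp only [dig] at he
  obtain ⟨r0, r1⟩ := hR r h.1.1
  obtain ⟨r0', r1'⟩ := hR r' h'.1.1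
  have e1 : r + p * (s + p ^ e * b) = r' + p * (s' + p ^ e * b') := by
    have h2 : p ^ (e + 1) = p * p ^ e := by ring
    rw [h2] at he
    linarith
  obtain ⟨e2, e3⟩ := digit_eq r0 r1 r0' r1' e1
  obtain ⟨e4, e5⟩ := digit_eq h.1.2.1 h.1.2.2 h'.1.2.1 h'.1.2.2 e3
  simp [e2, e4, e5]

theorem card_digs (hp : 0 < p) (hR : ∀ r ∈ R, 0 ≤ r ∧ r < p) (j : ℕ) :
    ((digs p e R j).card : ℤ) = (R.card * p ^ e) ^ j := by
  induction j with
  | zero => simp [digs]
  | succ j ih =>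
    rw [digs, Finset.card_image_of_injOn (dig_inj hR _), Finset.card_product,
      Finset.card_product, Int.card_Ico]
    push_cast
    rw [ih, sub_zero, Int.toNat_of_nonneg (by positivity)]
    ring

theorem digs_free {c : ℤ} (hp : Prime p) (hp0 : 0 < p) (hc : ¬ p ∣ c)
    (hR : ∀ r ∈ R, 0 ≤ r ∧ r < p) (hg : Good p c (e + 1) R) (j : ℕ) :
    ∀ a ∈ digs p e R j, ∀ b ∈ digs p e R j, ∀ x G : ℤ, p ∣ G - c →
      a - b = x ^ (e + 1) * G → a = b := by
  induction j with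
  | zero =>
    intro a ha b hb x G _ _
    simp only [digs, Finset.mem_singleton] at ha hb
    rw [ha, hb]
  | succ j ih =>
    intro a ha b hb x G hG hx
    simp only [digs, Finset.mem_image, Finset.mem_product, Finset.mem_Ico] at ha hb
    obtain ⟨⟨⟨r, s⟩, a1⟩, ⟨⟨h1, h2, h3⟩, h4⟩, rfl⟩ := ha
    obtain ⟨⟨⟨r', s'⟩, b1⟩, ⟨⟨h1', h2', h3'⟩, h4'⟩, rfl⟩ := hb
    simp only [dig] at hx ⊢
    simp only at h2 h3 h2' h3'
    obtain ⟨q, hq⟩ := id hG
    have hG2 : G = c + p * q := by linarith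
    have hpe : p ^ (e + 1) = p * p ^ e := by ring
    have er : r = r' := by
      refine hg r h1 r' h1' x ⟨x ^ (e + 1) * q - (s - s') - p ^ e * (a1 - b1), ?_⟩
      rw [hG2, hpe] at hx
      linear_combination hx
    subst er
    have e1 : p * (s - s' + p ^ e * (a1 - b1)) = x ^ (e + 1) * G := by
      rw [← hx, hpe]
      ring
    have d1 : p ∣ x ^ (e + 1) * G := ⟨_, e1.symm⟩
    have d2 : p ∣ x := by
      rcases hp.dvd_or_dvd d1 with h | h
      · exact hp.dvd_of_dvd_pow h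
      · exact absurd (by simpa using dvd_sub h hG) hc
    obtain ⟨y, rfl⟩ := d2
    have e2 : s - s' + p ^ e * (a1 - b1) = p ^ e * (y ^ (e + 1) * G) := by
      have : p * (s - s' + p ^ e * (a1 - b1)) = p * (p ^ e * (y ^ (e + 1) * G)) := by
        rw [e1]
        ring
      exact mul_left_cancel₀ hp0.ne' this
    have e3 : s + p ^ e * (a1 - b1) = s' + p ^ e * (y ^ (e + 1) * G) := by linarith
    obtain ⟨e4, e5⟩ := digit_eq h2 h3 h2' h3' e3
    have e6 := ih a1 h4 b1 h4' y G hG e5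
    rw [e4, e6]

theorem rPoly_ge {g : ℤ[X]} {α : ℤ} (hp : Prime p) (hp0 : 0 < p)
    (hroot : ∀ x : ℤ, ¬ p ∣ g.eval x)
    (hR : ∀ r ∈ R, 0 ≤ r ∧ r < p) (hg : Good p (g.eval α) (e + 1) R) (j N : ℕ)
    (hN : (p ^ (e + 1)) ^ (j + 1) ≤ (N : ℤ)) :
    ((R.card : ℤ) * p ^ e) ^ j ≤ rPoly ((X - C α) ^ (e + 1) * g) N := by
  have hpos : (0 : ℤ) < p ^ (e + 1) := by positivity
  have hinj : Function.Injective (fun a : ℤ => p ^ (e + 1) * a + 1) := by
    intro a b h
    simp only at h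
    exact mul_left_cancel₀ hpos.ne' (by linarith)
  rw [← card_digs hp0 hR j]
  have hcard : (digs p e R j).card = ((digs p e R j).image (fun a => p ^ (e + 1) * a + 1)).card :=
    (Finset.card_image_of_injective _ hinj).symm
  rw [hcard]
  have key : ((digs p e R j).image (fun a => p ^ (e + 1) * a + 1)).card ≤
      rPoly ((X - C α) ^ (e + 1) * g) N := by
    apply card_le_rPoly
    · intro a ha
      simp only [Finset.mem_image] at ha
      obtain ⟨b, hb, rfl⟩ := ha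
      obtain ⟨h1, h2⟩ := digs_range hp0 hR j b hb
      rw [Finset.mem_Icc]
      constructor
      · nlinarith
      · have h3 : b + 1 ≤ (p ^ (e + 1)) ^ j := h2
        have h4 : p ^ (e + 1) * (b + 1) ≤ p ^ (e + 1) * (p ^ (e + 1)) ^ j :=
          mul_le_mul_of_nonneg_left h3 hpos.le
        have h5 : p ^ (e + 1) * (p ^ (e + 1)) ^ j = (p ^ (e + 1)) ^ (j + 1) := by ring
        rw [h5] at h4
        have h6 : (1 : ℤ) ≤ p ^ (e + 1) := hpos
        linarith
    · intro a ha b hb n _ hab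
      simp only [Finset.mem_image] at ha hb
      obtain ⟨a', ha', rfl⟩ := ha
      obtain ⟨b', hb', rfl⟩ := hb
      have h1 : p ^ (e + 1) * (a' - b') = ((n : ℤ) - α) ^ (e + 1) * g.eval (n : ℤ) := by
        have := hab
        simp only [Polynomial.eval_mul, Polynomial.eval_pow, Polynomial.eval_sub,
          Polynomial.eval_X, Polynomial.eval_C] at this
        linarith
      have h2 : p ∣ (n : ℤ) - α := by
        have h3 : p ∣ ((n : ℤ) - α) ^ (e + 1) * g.eval (n : ℤ) := by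
          rw [← h1, pow_succ']
          exact ⟨p ^ e * (a' - b'), by ring⟩
        rcases hp.dvd_or_dvd h3 with h | h
        · exact hp.dvd_of_dvd_pow h
        · exact absurd h (hroot _)
      obtain ⟨y, hy⟩ := h2
      have hn : (n : ℤ) = α + p * y := by linarith
      have h4 : a' - b' = y ^ (e + 1) * g.eval (α + p * y) := by
        rw [hy, hn] at h1
        have : p ^ (e + 1) * (a' - b') = p ^ (e + 1) * (y ^ (e + 1) * g.eval (α + p * y)) := by
          rw [h1]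
          ring
        exact mul_left_cancel₀ hpos.ne' this
      have h5 : p ∣ g.eval (α + p * y) - g.eval α := by
        have := Polynomial.sub_dvd_eval_sub (α + p * y) α g
        rw [add_sub_cancel_left] at this
        exact (Dvd.intro y rfl).trans this
      have h6 := digs_free hp hp0 (hroot α) hR hg j a' ha' b' hb' y _ h5 h4
      rw [h6]
      ring
  exact_mod_cast key

theorem one_le_rPoly (h : ℤ[X]) {N : ℕ} (hN : 1 ≤ N) : 1 ≤ rPoly h N := by
  have h1 : ({1} : Finset ℤ).card ≤ rPoly h N := by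
    apply card_le_rPoly
    · intro a ha
      rw [Finset.mem_singleton] at ha
      rw [ha, Finset.mem_Icc]
      exact ⟨le_rfl, by exact_mod_cast hN⟩
    · intro a ha b hb n _ _
      rw [Finset.mem_singleton] at ha hb
      rw [ha, hb, sub_self]
  simpa using h1

/-- The lower bound with exponent `γ = (e + log |R| / log p) / (e + 1)`. -/
theorem lower_bound {g : ℤ[X]} {α : ℤ} {p : ℕ} {R : Finset ℤ} {e : ℕ} (hp : p.Prime)
    (hroot : ∀ x : ℤ, ¬ (p : ℤ) ∣ g.eval x)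
    (hR : ∀ r ∈ R, 0 ≤ r ∧ r < (p : ℤ)) (hg : Good (p : ℤ) (g.eval α) (e + 1) R)
    (hne : R.Nonempty) (N : ℕ) (hN : 1 ≤ N) :
    (N : ℝ) ^ ((e + Real.log R.card / Real.log p) / (e + 1)) / (R.card * (p : ℝ) ^ e) ^ 2 ≤
      rPoly ((X - C α) ^ (e + 1) * g) N := by
  have hp2 : 2 ≤ p := hp.two_le
  have hp0 : (0 : ℝ) < p := by positivity
  have hp1 : (1 : ℝ) < p := by exact_mod_cast hp.one_lt
  have hc : (1 : ℝ) ≤ R.card := by exact_mod_cast hne.card_pos
  have hc0 : (0 : ℝ) < R.card := by linarith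
  have hlog : 0 < Real.log p := Real.log_pos hp1
  have hpZ : Prime (p : ℤ) := Nat.prime_iff_prime_int.1 hp
  have hpZ0 : (0 : ℤ) < p := by exact_mod_cast hp.pos
  set q : ℝ := R.card * (p : ℝ) ^ e with hq
  have hpe1 : (1 : ℝ) ≤ (p : ℝ) ^ e := one_le_pow₀ hp1.le
  have hq1 : 1 ≤ q := by nlinarith
  have hq0 : 0 < q := by linarith
  set γ : ℝ := (e + Real.log R.card / Real.log p) / (e + 1) with hγ
  have hγ0 : 0 ≤ γ := by
    have : 0 ≤ Real.log R.card := Real.log_nonneg hc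
    positivity
  have h4 : (((p : ℝ) ^ (e + 1))) ^ γ = q := by
    rw [← Real.rpow_natCast, ← Real.rpow_mul hp0.le]
    have e1 : ((e + 1 : ℕ) : ℝ) * γ = e + Real.log R.card / Real.log p := by
      rw [hγ]
      push_cast
      field_simp
    rw [e1, Real.rpow_add hp0, Real.rpow_natCast]
    have e2 : (p : ℝ) ^ (Real.log R.card / Real.log p) = R.card := by
      rw [Real.rpow_def_of_pos hp0, mul_div_cancel₀ _ hlog.ne', Real.exp_log hc0]
    rw [e2, hq]
    ring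
  have hQ : 1 < p ^ (e + 1) := Nat.one_lt_pow (by omega) hp.one_lt
  obtain ⟨i, hi1, hi2⟩ : ∃ i : ℕ, (p ^ (e + 1)) ^ i ≤ N ∧ N < (p ^ (e + 1)) ^ (i + 1) :=
    ⟨Nat.log (p ^ (e + 1)) N, Nat.pow_log_le_self _ (by omega), Nat.lt_pow_succ_log_self hQ _⟩
  have h2 : (N : ℝ) ≤ ((p : ℝ) ^ (e + 1)) ^ (i + 1) := by exact_mod_cast hi2.le
  have h3 : (N : ℝ) ^ γ ≤ q ^ (i + 1) := by
    refine (Real.rpow_le_rpow (by positivity) h2 hγ0).trans (le_of_eq ?_)
    rw [← Real.rpow_natCast, ← Real.rpow_mul (by positivity), mul_comm,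
      Real.rpow_mul (by positivity), h4, Real.rpow_natCast]
  rw [div_le_iff₀ (by positivity)]
  rcases Nat.eq_zero_or_pos i with h0 | h0
  · subst h0
    have h5 : (1 : ℝ) ≤ rPoly ((X - C α) ^ (e + 1) * g) N := by exact_mod_cast one_le_rPoly _ hN
    have h6 : q ^ (0 + 1) ≤ q ^ 2 := pow_le_pow_right₀ hq1 (by norm_num)
    have h7 : 0 < q ^ 2 := by positivity
    nlinarith
  · obtain ⟨j, rfl⟩ : ∃ j, i = j + 1 := ⟨i - 1, by omega⟩
    have h1 := rPoly_ge (e := e) hpZ hpZ0 hroot hR hg j N (by exact_mod_cast hi1)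
    have h1' : q ^ j ≤ rPoly ((X - C α) ^ (e + 1) * g) N := by
      rw [hq]
      exact_mod_cast h1
    calc (N : ℝ) ^ γ ≤ q ^ (j + 1 + 1) := h3
      _ = q ^ j * q ^ 2 := by ring
      _ ≤ _ := mul_le_mul_of_nonneg_right h1' (by positivity)

end Vale.Agent.PolyDiff
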