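import Vale.Agent.PolyDiff.Ruzsa

/-!
# P042: the digit construction for primes `p = 2 k + 1`
-/

namespace Vale.Agent.PolyDiff

open Polynomial

/-- `k`-th powers modulo `p = 2 k + 1` are `0, 1, -1` -/
theorem pow_cases {p k : ℕ} (hp : p.Prime) (hpk : p = 2 * k + 1) (x : ℤ) :
    ∃ ε : ℤ, (ε = 0 ∨ ε = 1 ∨ ε = -1) ∧ (p : ℤ) ∣ x ^ k - ε := by
  have : Fact p.Prime := ⟨hp⟩
  have hk : k ≠ 0 := by
    rintro rfl
    rw [hpk] at hp
    exact absurd hp (by norm_num)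
  by_cases hx : (x : ZMod p) = 0
  · refine ⟨0, Or.inl rfl, ?_⟩
    rw [← ZMod.intCast_eq_intCast_iff_dvd_sub]
    push_cast
    rw [hx, zero_pow hk]
  · have h1 : ((x : ZMod p) ^ k) ^ 2 = 1 := by
      rw [← pow_mul, mul_comm, show 2 * k = p - 1 by omega]
      exact ZMod.pow_card_sub_one_eq_one hx
    rw [sq] at h1
    rcases mul_self_eq_one_iff.1 h1 with h | h
    · exact ⟨1, Or.inr (Or.inl rfl), by
        rw [← ZMod.intCast_eq_intCast_iff_dvd_sub]; push_cast; exact h.symm⟩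
    · exact ⟨-1, Or.inr (Or.inr rfl), by
        rw [← ZMod.intCast_eq_intCast_iff_dvd_sub]; push_cast; exact h.symm⟩

/-- the residues `2 c i mod p`, `i < k` -/
def resid (p k : ℕ) (c : ℤ) : Finset ℤ :=
  (Finset.range k).image fun i : ℕ => (2 * c * (i : ℤ)) % (p : ℤ)

theorem resid_key {p k : ℕ} {c : ℤ} (hp : p.Prime) (hpk : p = 2 * k + 1) (hc : ¬ (p : ℤ) ∣ c)
    {i i' : ℕ} (hi : i < k) (hi' : i' < k) {ε : ℤ} (hε : ε = 0 ∨ ε = 1 ∨ ε = -1)
    (h : (p : ℤ) ∣ 2 * c * i - 2 * c * i' - c * ε) : i = i' := by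
  have hpZ : Prime (p : ℤ) := Nat.prime_iff_prime_int.1 hp
  have h1 : (p : ℤ) ∣ c * (2 * ((i : ℤ) - i') - ε) := by
    have : c * (2 * ((i : ℤ) - i') - ε) = 2 * c * i - 2 * c * i' - c * ε := by ring
    rw [this]
    exact h
  have h2 : (p : ℤ) ∣ 2 * ((i : ℤ) - i') - ε := (hpZ.dvd_or_dvd h1).resolve_left hc
  have h3 : 2 * ((i : ℤ) - i') - ε = 0 := by
    refine Int.eq_zero_of_abs_lt_dvd h2 ?_
    rw [abs_lt]
    rcases hε with rfl | rfl | rfl <;> constructor <;> push_cast [hpk] <;> omega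
  rcases hε with rfl | rfl | rfl <;> omega

theorem card_resid {p k : ℕ} {c : ℤ} (hp : p.Prime) (hpk : p = 2 * k + 1)
    (hc : ¬ (p : ℤ) ∣ c) : (resid p k c).card = k := by
  rw [resid, Finset.card_image_of_injOn, Finset.card_range]
  intro i hi i' hi' h
  simp only [Finset.coe_range, Set.mem_Iio] at hi hi'
  simp only at h
  refine resid_key hp hpk hc hi hi' (ε := 0) (Or.inl rfl) ?_
  rw [mul_zero, sub_zero]
  exact Int.ModEq.dvd (n := (p : ℤ)) h.symm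

theorem good_resid {p k : ℕ} {c : ℤ} (hp : p.Prime) (hpk : p = 2 * k + 1)
    (hc : ¬ (p : ℤ) ∣ c) : Good (p : ℤ) c k (resid p k c) := by
  intro r hr r' hr' x hx
  simp only [resid, Finset.mem_image, Finset.mem_range] at hr hr'
  obtain ⟨i, hi, rfl⟩ := hr
  obtain ⟨i', hi', rfl⟩ := hr'
  obtain ⟨ε, hε, h1⟩ := pow_cases hp hpk x
  have h2 : (p : ℤ) ∣ 2 * c * i - (2 * c * i) % p :=
    ⟨(2 * c * i) / p, by linarith [Int.emod_add_mul_ediv (2 * c * (i : ℤ)) p]⟩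
  have h3 : (p : ℤ) ∣ 2 * c * i' - (2 * c * i') % p :=
    ⟨(2 * c * i') / p, by linarith [Int.emod_add_mul_ediv (2 * c * (i' : ℤ)) p]⟩
  have h4 : (p : ℤ) ∣ 2 * c * i - 2 * c * i' - c * ε := by
    have e : 2 * c * (i : ℤ) - 2 * c * i' - c * ε = (2 * c * i - (2 * c * i) % p) -
        (2 * c * i' - (2 * c * i') % p) + ((2 * c * i) % p - (2 * c * i') % p - c * x ^ k) +
        c * (x ^ k - ε) := by ring
    rw [e]
    exact dvd_add (dvd_add (dvd_sub h2 h3) hx) (Dvd.dvd.mul_left h1 c)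
  rw [resid_key hp hpk hc hi hi' hε h4]

theorem resid_range {p k : ℕ} {c : ℤ} (hp : p.Prime) :
    ∀ r ∈ resid p k c, 0 ≤ r ∧ r < (p : ℤ) := by
  intro r hr
  simp only [resid, Finset.mem_image, Finset.mem_range] at hr
  obtain ⟨i, hi, rfl⟩ := hr
  have hp0 : (0 : ℤ) < p := by exact_mod_cast hp.pos
  exact ⟨Int.emod_nonneg _ hp0.ne', Int.emod_lt_of_pos _ hp0⟩

/-- The exponent. -/
noncomputable def expo (k : ℕ) : ℝ :=
  1 - (1 - Real.log k / Real.log (2 * k + 1)) / k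

theorem special {k : ℕ} (hk : 1 ≤ k) (hp : (2 * k + 1).Prime) {g : ℤ[X]} (α : ℤ)
    (hroot : ∀ x : ℤ, ¬ ((2 * k + 1 : ℕ) : ℤ) ∣ g.eval x) (N : ℕ) (hN : 1 ≤ N) :
    (N : ℝ) ^ expo k / ((k : ℝ) * (2 * k + 1) ^ (k - 1)) ^ 2 ≤ rPoly ((X - C α) ^ k * g) N := by
  obtain ⟨e, rfl⟩ : ∃ e, k = e + 1 := ⟨k - 1, by omega⟩
  have hc := card_resid hp rfl (hroot α)
  have h := lower_bound (e := e) (α := α) hp hroot
    (resid_range (k := e + 1) (c := g.eval α) hp)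
    (good_resid hp rfl (hroot α)) (by rw [← Finset.card_pos, hc]; omega) N hN
  rw [hc] at h
  have hE : expo (e + 1) = (e + Real.log ((e + 1 : ℕ) : ℝ) /
      Real.log ((2 * (e + 1) + 1 : ℕ) : ℝ)) / (e + 1) := by
    rw [expo]
    have h0 : ((e + 1 : ℕ) : ℝ) ≠ 0 := by positivity
    push_cast at h0 ⊢
    field_simp
    ring
  rw [hE]
  simpa using h

/-- For `3 ≤ k` and `1 ≤ m ≤ k` the exponent is larger than `1 - 1 / (k + m)`. -/
theorem expo_gt {k m : ℕ} (hk : 3 ≤ k) (hm : m ≤ k) : 1 - 1 / ((k + m : ℕ) : ℝ) < expo k := by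
  have hk0 : (0 : ℝ) < k := by
    have : 0 < k := by omega
    exact_mod_cast this
  have hk3 : (3 : ℝ) ≤ k := by exact_mod_cast hk
  have hl : 0 < Real.log (2 * (k : ℝ) + 1) := Real.log_pos (by linarith)
  have h1 : Real.log (2 * (k : ℝ) + 1) < 2 * Real.log k := by
    have h2 : 2 * Real.log k = Real.log ((k : ℝ) ^ 2) := by
      rw [Real.log_pow]
      norm_num
    rw [h2]
    exact Real.log_lt_log (by linarith) (by nlinarith)
  have h3 : 1 / 2 < Real.log k / Real.log (2 * (k : ℝ) + 1) := by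
    rw [div_lt_div_iff₀ (by norm_num) hl]
    linarith
  rw [expo]
  have h4 : (1 - Real.log k / Real.log (2 * (k : ℝ) + 1)) / k < 1 / ((k + m : ℕ) : ℝ) := by
    have hkm : (0 : ℝ) < ((k + m : ℕ) : ℝ) := by
      have : 0 < k + m := by omega
      exact_mod_cast this
    rw [div_lt_div_iff₀ hk0 hkm]
    have h5 : ((k + m : ℕ) : ℝ) ≤ 2 * k := by
      have : k + m ≤ 2 * k := by omega
      exact_mod_cast this
    nlinarith
  linarith

end Vale.Agent.PolyDiff
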